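import Vale.Agent.P017.H390.ClassFin
import Vale.Agent.P017.H390.TypeB

/-! `X_0(15)` over imaginary quadratic fields `K = ℚ(√-d)`: every local type at `3` and `5` for which
the root number of `X_0(15)` over `K` is `+1`. -/

namespace Vale.Agent.Results.P017.AllLocalTypes

open NumberField Vale.Agent.P017.H524

universe u

/-- `K = ℚ(√-d)`, `d` squarefree.
(1) `3` not inert, `5` not split in `K`, no ideal class of order 4: `X_0(15)(K)` is finite.
(2) `3` inert, `5` split in `K`, and the only `m ∣ 5 d` (`m ∣ 10 d` if `d ≡ 1 mod 4`) with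
`m ≡ 1 mod 3` which are norms of elements of `K` are `1` and `d`: `X_0(15)(K)` has 8 elements.
(3) `3` split, `5` inert, no class of order 4: 8 elements.
(4), (5) Explicit infinite families without further hypotheses. -/
theorem result :
    (∀ d : ℕ, Squarefree d → d % 3 ≠ 1 → d % 5 ≠ 1 → d % 5 ≠ 4 →
      ∀ (K : Type u) [Field K] [NumberField K], Module.finrank ℚ K = 2 →
        (∃ α : K, α ^ 2 = -(d : K)) → (∀ c : ClassGroup (𝓞 K), orderOf c ≠ 4) →
        Finite (X015.baseChange K).toAffine.Point) ∧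
    (∀ d : ℕ, Squarefree d → 1 < d → d % 3 = 1 → (d % 5 = 1 ∨ d % 5 = 4) →
      (∀ m : ℕ, m ∣ 10 * d → (m ∣ 5 * d ∨ d % 4 = 1) → m % 3 = 1 →
        (∃ x y : ℚ, x ^ 2 + d * y ^ 2 = m) → m = 1 ∨ m = d) →
      ∀ (K : Type u) [Field K] [NumberField K], Module.finrank ℚ K = 2 →
        (∃ α : K, α ^ 2 = -(d : K)) → Nat.card (X015.baseChange K).toAffine.Point = 8) ∧
    (∀ d : ℕ, Squarefree d → d % 3 = 2 → (d % 5 = 2 ∨ d % 5 = 3) →
      ∀ (K : Type u) [Field K] [NumberField K], Module.finrank ℚ K = 2 →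
        (∃ α : K, α ^ 2 = -(d : K)) → (∀ c : ClassGroup (𝓞 K), orderOf c ≠ 4) →
        Nat.card (X015.baseChange K).toAffine.Point = 8) ∧
    (∀ p : ℕ, p.Prime → 2 < p → p % 8 ≠ 1 →
      (p % 15 = 1 ∨ p % 15 = 2 ∨ p % 15 = 4 ∨ p % 15 = 8) →
      ∀ (K : Type u) [Field K] [NumberField K], Module.finrank ℚ K = 2 →
        (∃ α : K, α ^ 2 = -(p : K)) → Nat.card (X015.baseChange K).toAffine.Point = 8) ∧
    (∀ k N : ℕ, 1 ≤ k → ∃ d > N, Squarefree d ∧ d.primeFactors.card = k ∧ d % 4 = 3 ∧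
      ∀ (K : Type u) [Field K] [NumberField K], Module.finrank ℚ K = 2 →
        (∃ α : K, α ^ 2 = -(d : K)) → Nat.card (X015.baseChange K).toAffine.Point = 8) := by
  refine ⟨fun d hsf h3 h5 h5' K _ _ hK hα hcl =>
      Vale.Agent.P017.H390.finite_class hsf h3 ⟨h5, h5'⟩ K hK hα hcl,
    fun d hsf h1 h3 h5 HN K _ _ hK hα =>
      Vale.Agent.P017.H390.eight_norm hsf h1 (by omega) HN K hK hα,
    fun d hsf h3 h5 K _ _ hK hα hcl => eight_split leg2 hsf (by omega) hK hα hcl,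
    fun _ hp h2 h8 h15 _ _ _ hK hα => eight_prime hp h2 h8 h15 hK hα, fun k N hk => ?_⟩
  obtain ⟨d, hN, h1, hsf, hc, h4, h15, hC⟩ := exists_U k N hk
  exact ⟨d, hN, hsf, hc, h4, fun K _ _ hK hα => eight_U hsf h1 (by omega) h15 hC hK hα⟩

end Vale.Agent.Results.P017.AllLocalTypes
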