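import Vale.Agent.P017.H524.SplitInert

/-! `X_0(15)` over the imaginary quadratic fields in which `3` splits and `5` is inert and which
have no ideal class of order 4. -/

namespace Vale.Agent.Results.P017.ClassGroupFields

open NumberField Vale.Agent.P017.H524

universe u

/-- `K = ℚ(√-d)`, `d ≡ 2` or `8 mod 15` squarefree (so `3` splits and `5` is inert in `K`), no ideal class
of order 4: the curve `X_0(15)` has exactly 8 points over `K`. -/
theorem result (d : ℕ) (hd : Squarefree d) (h15 : d % 15 = 2 ∨ d % 15 = 8)
    (K : Type u) [Field K] [NumberField K] (hK : Module.finrank ℚ K = 2)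
    (hα : ∃ α : K, α ^ 2 = -(d : K)) (hcl : ∀ c : ClassGroup (𝓞 K), orderOf c ≠ 4) :
    Nat.card (X015.baseChange K).toAffine.Point = 8 :=
  eight_split leg2 hd h15 hK hα hcl

end Vale.Agent.Results.P017.ClassGroupFields
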