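import Vale.Agent.P017.H524.FinalU

/-! The modular curve `X_0(15)` has exactly its 8 rational points over infinitely many explicit
imaginary quadratic fields. -/

namespace Vale.Agent.Results.P017.QuadraticFields

open Vale.Agent.P017.H524

universe u

/-- (1) all primes in 12 of the 32 classes modulo 120; (2) all odd squarefree `d > 1`, `d ≡ 1, 2, 4, 8 mod 15`,
satisfying the explicit criterion; (3) there are infinitely many such `d` with any given number
of prime factors. -/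
theorem result :
    (∀ p : ℕ, p.Prime → 2 < p → p % 8 ≠ 1 →
      (p % 15 = 1 ∨ p % 15 = 2 ∨ p % 15 = 4 ∨ p % 15 = 8) →
      ∀ (K : Type u) [Field K] [NumberField K], Module.finrank ℚ K = 2 →
        (∃ α : K, α ^ 2 = -(p : K)) → Nat.card (X015.baseChange K).toAffine.Point = 8) ∧
    (∀ d : ℕ, 1 < d → Squarefree d → d % 2 = 1 →
      (d % 15 = 1 ∨ d % 15 = 2 ∨ d % 15 = 4 ∨ d % 15 = 8) → Crit (d : ℤ) →
      ∀ (K : Type u) [Field K] [NumberField K], Module.finrank ℚ K = 2 →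
        (∃ α : K, α ^ 2 = -(d : K)) → Nat.card (X015.baseChange K).toAffine.Point = 8) ∧
    (∀ k N : ℕ, 1 ≤ k → ∃ d > N, 1 < d ∧ Squarefree d ∧ d.primeFactors.card = k ∧ d % 4 = 3 ∧
      (d % 15 = 1 ∨ d % 15 = 2 ∨ d % 15 = 4 ∨ d % 15 = 8) ∧ Crit (d : ℤ)) :=
  ⟨fun _ hp h2 h8 h15 _ _ _ hK hα => eight_prime hp h2 h8 h15 hK hα,
    fun _ hd hsq h2 h15 hC _ _ _ hK hα => eight_U hsq hd h2 h15 hC hK hα,
    fun k N hk => exists_U k N hk⟩

end Vale.Agent.Results.P017.QuadraticFields
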